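import Vale.Agent.P359.Moment.CertData
import Vale.Agent.P359.Moment.Tab.Goal

/-!
Common imports of the class files of the certificate.
-/
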