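import Vale.Agent.P359.Moment.Cert.C1

/-!
Class 0 of the residual: integer tables at `eps = 0` and the factor of the symmetric part
(1 monomials kept, 0 expanded).
-/

namespace Vale.Agent.P359.Moment.Cert

namespace C0

open Tab

/-- The monomials kept. -/
def keys : List St := [.bh 0]

/-- The monomials expanded. -/
def srcs : List St := []

/-- Their search tree. -/
def ix : Ix := .leaf 0 (.bh 0)

/-- Row 0 of the target part. -/
def t0R0 : List ℤ := [937]

/-- The table of the target part. -/
def t0 : List (List ℤ) := [t0R0]

/-- Row 0 of the Gram part. -/
def t1R0 : List ℤ := [-741281378318606033449862311128055389723934776027683]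

/-- The table of the Gram part. -/
def t1 : List (List ℤ) := [t1R0]

/-- The table of the pair-particle part. -/
def t2 : List (List ℤ) := zeroT 1

/-- The table of the four-particle part. -/
def t3 : List (List ℤ) := zeroT 1

/-- The table of the null part. -/
def t4 : List (List ℤ) := zeroT 1

/-- The tables with their denominators. -/
def parts : Parts where
  den := (500, 395701568307341965103647668457933627571843736010752, 1, 1, 1)
  fac := (98925392076835491275911917114483406892960934002688, 125, 49462696038417745637955958557241703446480467001344000, 49462696038417745637955958557241703446480467001344000, 49462696038417745637955958557241703446480467001344000)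
  t0 := t0
  t1 := t1
  t2 := t2
  t3 := t3
  t4 := t4

/-- The common denominator. -/
def den : ℕ := 49462696038417745637955958557241703446480467001344000

/-- The expansions. -/
def T : List (List ℤ) := []

/-- The weights. -/
def dw : List ℤ := [35184372088832]

/-- Row 0 of the factor. -/
def BR0 : List ℤ := [907698032885]

/-- The factor. -/
def B : List (List ℤ) := [BR0]

theorem target_ok : tabOk parts.den.1 ix 0 keys.length (keys ++ srcs).length
    (targetPart 0 z2Lit) parts.t0 = true := by decide +kernel

theorem gram_ok : tabOk parts.den.2.1 ix 0 keys.length (keys ++ srcs).length
    (blocksPart 0 data) parts.t1 = true := by decide +kernel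

theorem pair_ok : tabOk parts.den.2.2.1 ix 0 keys.length (keys ++ srcs).length
    (g3Part 0 data) parts.t2 = true := by decide +kernel

theorem word_ok : tabOk parts.den.2.2.2.1 ix 0 keys.length (keys ++ srcs).length
    (g4Part 0 data) parts.t3 = true := by decide +kernel

theorem null_ok : tabOk parts.den.2.2.2.2 ix 0 keys.length (keys ++ srcs).length
    (nullPart 0 data) parts.t4 = true := by decide +kernel

theorem comb_ok : combOk ix 0 keys.length (keys ++ srcs).length (expand (0 : ℚ)) srcs T = true := by
  decide +kernel

theorem pd_ok : pdTest keys.length srcs.length dw B den parts.total T = true := by decide +kernel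

theorem goal : ClassGoal data 0 :=
  classGoal_of_parts (keys := keys) (srcs := srcs) ix 0 data z2Lit 0 den parts T dw B z2Lit_eq z2Lit_cls
    (by decide +kernel) (by decide +kernel) target_ok gram_ok pair_ok word_ok null_ok comb_ok pd_ok

end C0

end Vale.Agent.P359.Moment.Cert
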