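import Vale.Agent.P359.Moment.Cert.C5

/-!
Class 10 of the residual: integer tables at `eps = 0` and the factor of the symmetric part
(0 monomials kept, 4 expanded).
-/

namespace Vale.Agent.P359.Moment.Cert

namespace C10

open Tab

/-- The monomials kept. -/
def keys : List St := []

/-- The monomials expanded. -/
def srcs : List St := [.win 0 0 3, .win 0 1 2, .win 1 0 2, .win 2 0 1]

/-- Their search tree. -/
def ix : Ix := .node 16394 (.node 266 (.leaf 0 (.win 0 0 3)) (.leaf 1 (.win 0 1 2))) (.node 32774 (.leaf 2 (.win 1 0 2)) (.leaf 3 (.win 2 0 1)))

/-- The table of the target part. -/
def t0 : List (List ℤ) := zeroT 4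

/-- Row 0 of the Gram part. -/
def t1R0 : List ℤ := [4440796829347373315379259301118660570459854809, -5894075316582544764274362475761306605527550214, 0, -1380707048441498621043780723983682232444930771]

/-- Row 1 of the Gram part. -/
def t1R1 : List ℤ := [-5894075316582544764274362475761306605527550214, 2183873090637364345364787218356344676510609000, 0, 4350961964437451794715135434341378233305083910]

/-- Row 2 of the Gram part. -/
def t1R2 : List ℤ := [0, 0, 952746438855442822264996275649126853323680800, 0]

/-- Row 3 of the Gram part. -/
def t1R3 : List ℤ := [-1380707048441498621043780723983682232444930771, 4350961964437451794715135434341378233305083910, 0, 424169558825731793338232421572389047630468182]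

/-- The table of the Gram part. -/
def t1 : List (List ℤ) := [t1R0, t1R1, t1R2, t1R3]

/-- The table of the pair-particle part. -/
def t2 : List (List ℤ) := zeroT 4

/-- The table of the four-particle part. -/
def t3 : List (List ℤ) := zeroT 4

/-- The table of the null part. -/
def t4 : List (List ℤ) := zeroT 4

/-- The tables with their denominators. -/
def parts : Parts where
  den := (1, 5846006549323611672814739330865132078623730171904, 1, 1, 1)
  fac := (5846006549323611672814739330865132078623730171904, 1, 5846006549323611672814739330865132078623730171904, 5846006549323611672814739330865132078623730171904, 5846006549323611672814739330865132078623730171904)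
  t0 := t0
  t1 := t1
  t2 := t2
  t3 := t3
  t4 := t4

/-- The common denominator. -/
def den : ℕ := 5846006549323611672814739330865132078623730171904

/-- The expansions. -/
def T : List (List ℤ) := [[],
  [],
  [],
  []]

/-- The weights. -/
def dw : List ℤ := []

/-- The factor. -/
def B : List (List ℤ) := []

theorem target_ok : tabOk parts.den.1 ix 2 keys.length (keys ++ srcs).length
    (targetPart 10 z2Lit) parts.t0 = true := by decide +kernel

theorem gram_ok : tabOk parts.den.2.1 ix 2 keys.length (keys ++ srcs).length
    (blocksPart 10 data) parts.t1 = true := by decide +kernel

theorem pair_ok : tabOk parts.den.2.2.1 ix 2 keys.length (keys ++ srcs).length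
    (g3Part 10 data) parts.t2 = true := by decide +kernel

theorem word_ok : tabOk parts.den.2.2.2.1 ix 2 keys.length (keys ++ srcs).length
    (g4Part 10 data) parts.t3 = true := by decide +kernel

theorem null_ok : tabOk parts.den.2.2.2.2 ix 2 keys.length (keys ++ srcs).length
    (nullPart 10 data) parts.t4 = true := by decide +kernel

theorem comb_ok : combOk ix 2 keys.length (keys ++ srcs).length (expand (0 : ℚ)) srcs T = true := by
  decide +kernel

theorem pd_ok : pdTest keys.length srcs.length dw B den parts.total T = true := by decide +kernel

theorem goal : ClassGoal data 10 :=
  classGoal_of_parts (keys := keys) (srcs := srcs) ix 2 data z2Lit 10 den parts T dw B z2Lit_eq z2Lit_cls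
    (by decide +kernel) (by decide +kernel) target_ok gram_ok pair_ok word_ok null_ok comb_ok pd_ok

end C10

end Vale.Agent.P359.Moment.Cert
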