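import Vale.Agent.P359.Moment.Cert.C14

/-!
Class 12 of the residual: integer tables at `eps = 0` and the factor of the symmetric part
(0 monomials kept, 6 expanded).
-/

namespace Vale.Agent.P359.Moment.Cert

namespace C12

open Tab

/-- The monomials kept. -/
def keys : List St := []

/-- The monomials expanded. -/
def srcs : List St := [.win 0 0 4, .win 0 1 3, .win 1 0 3, .win 1 1 2, .win 2 0 2, .win 3 0 1]

/-- Their search tree. -/
def ix : Ix := .node 16650 (.node 270 (.leaf 0 (.win 0 0 4)) (.node 16398 (.leaf 1 (.win 0 1 3)) (.leaf 2 (.win 1 0 3)))) (.node 32778 (.leaf 3 (.win 1 1 2)) (.node 49158 (.leaf 4 (.win 2 0 2)) (.leaf 5 (.win 3 0 1))))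

/-- The table of the target part. -/
def t0 : List (List ℤ) := zeroT 6

/-- Row 0 of the Gram part. -/
def t1R0 : List ℤ := [696552643872943408504783644502262523582851465850, -243193943042938941757973788870871658437520060000, 257103759957968754578200492782188789508646107480, -101046191008114515247979437724660378187750072240, -167566317305315397266391640718069131350929412450, -273186769215532944654359542414152753408632063730]

/-- Row 1 of the Gram part. -/
def t1R1 : List ℤ := [-243193943042938941757973788870871658437520060000, 527232085707805388821173007810786031508847257720, 335296496063078592899050292333645862709545556800, -552755406045004764772939482485425327048817005200, -113282103300084059520242338144631322991619646240, 18371606506205220130771135450303274205969863640]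

/-- Row 2 of the Gram part. -/
def t1R2 : List ℤ := [257103759957968754578200492782188789508646107480, 335296496063078592899050292333645862709545556800, 150679572113476349356241208307218283138395809840, -1909860679365206166686430720222884378130622395060, 407328991029627820232397567604739979028939408050, -212376170631552490220768576981096339585445142280]

/-- Row 3 of the Gram part. -/
def t1R3 : List ℤ := [-101046191008114515247979437724660378187750072240, -552755406045004764772939482485425327048817005200, -1909860679365206166686430720222884378130622395060, 23421304030235707952669492199381434873164776755820, -4380057507083634963818978668513435762514141295204, 188712068044217459400252847025920534778948473280]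

/-- Row 4 of the Gram part. -/
def t1R4 : List ℤ := [-167566317305315397266391640718069131350929412450, -113282103300084059520242338144631322991619646240, 407328991029627820232397567604739979028939408050, -4380057507083634963818978668513435762514141295204, 832390948081332900276303310953711794430163748856, 112103803169586831038344096670720899103244834200]

/-- Row 5 of the Gram part. -/
def t1R5 : List ℤ := [-273186769215532944654359542414152753408632063730, 18371606506205220130771135450303274205969863640, -212376170631552490220768576981096339585445142280, 188712068044217459400252847025920534778948473280, 112103803169586831038344096670720899103244834200, 146291738429168217806388065147610559703895338060]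

/-- The table of the Gram part. -/
def t1 : List (List ℤ) := [t1R0, t1R1, t1R2, t1R3, t1R4, t1R5]

/-- The table of the pair-particle part. -/
def t2 : List (List ℤ) := zeroT 6

/-- The table of the four-particle part. -/
def t3 : List (List ℤ) := zeroT 6

/-- The table of the null part. -/
def t4 : List (List ℤ) := zeroT 6

/-- The tables with their denominators. -/
def parts : Parts where
  den := (1, 1052281178878250101106653079555723774152271430942720, 1, 1, 1)
  fac := (1052281178878250101106653079555723774152271430942720, 1, 1052281178878250101106653079555723774152271430942720, 1052281178878250101106653079555723774152271430942720, 1052281178878250101106653079555723774152271430942720)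
  t0 := t0
  t1 := t1
  t2 := t2
  t3 := t3
  t4 := t4

/-- The common denominator. -/
def den : ℕ := 1052281178878250101106653079555723774152271430942720

/-- The expansions. -/
def T : List (List ℤ) := [[],
  [],
  [],
  [],
  [],
  []]

/-- The weights. -/
def dw : List ℤ := []

/-- The factor. -/
def B : List (List ℤ) := []

theorem target_ok : tabOk parts.den.1 ix 3 keys.length (keys ++ srcs).length
    (targetPart 12 z2Lit) parts.t0 = true := by decide +kernel

theorem gram_ok : tabOk parts.den.2.1 ix 3 keys.length (keys ++ srcs).length
    (blocksPart 12 data) parts.t1 = true := by decide +kernel

theorem pair_ok : tabOk parts.den.2.2.1 ix 3 keys.length (keys ++ srcs).length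
    (g3Part 12 data) parts.t2 = true := by decide +kernel

theorem word_ok : tabOk parts.den.2.2.2.1 ix 3 keys.length (keys ++ srcs).length
    (g4Part 12 data) parts.t3 = true := by decide +kernel

theorem null_ok : tabOk parts.den.2.2.2.2 ix 3 keys.length (keys ++ srcs).length
    (nullPart 12 data) parts.t4 = true := by decide +kernel

theorem comb_ok : combOk ix 3 keys.length (keys ++ srcs).length (expand (0 : ℚ)) srcs T = true := by
  decide +kernel

theorem pd_ok : pdTest keys.length srcs.length dw B den parts.total T = true := by decide +kernel

theorem goal : ClassGoal data 12 :=
  classGoal_of_parts (keys := keys) (srcs := srcs) ix 3 data z2Lit 12 den parts T dw B z2Lit_eq z2Lit_cls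
    (by decide +kernel) (by decide +kernel) target_ok gram_ok pair_ok word_ok null_ok comb_ok pd_ok

end C12

end Vale.Agent.P359.Moment.Cert
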