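import Vale.Agent.P359.Moment.Cert.C42

/-!
Class 3 of the residual: integer tables at `eps = 0` and the factor of the symmetric part
(2 monomials kept, 0 expanded).
-/

namespace Vale.Agent.P359.Moment.Cert

namespace C3

open Tab

/-- The monomials kept. -/
def keys : List St := [.one 0 1, .one 1 0]

/-- The monomials expanded. -/
def srcs : List St := []

/-- Their search tree. -/
def ix : Ix := .node 257 (.leaf 0 (.one 0 1)) (.leaf 1 (.one 1 0))

/-- The table of the target part. -/
def t0 : List (List ℤ) := zeroT 2

/-- Row 0 of the Gram part. -/
def t1R0 : List ℤ := [-383157407631600968652170292486827301424015658546997839416302474, 0]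

/-- Row 1 of the Gram part. -/
def t1R1 : List ℤ := [0, -191579086922882909224152087547643393538137139744439932663462212]

/-- The table of the Gram part. -/
def t1 : List (List ℤ) := [t1R0, t1R1]

/-- Row 0 of the pair-particle part. -/
def t2R0 : List ℤ := [-1162323266235963844090336, 2060731439956060443399274]

/-- Row 1 of the pair-particle part. -/
def t2R1 : List ℤ := [-898161819137732936425028, -290519227667153367932556]

/-- The table of the pair-particle part. -/
def t2 : List (List ℤ) := [t2R0, t2R1]

/-- The table of the four-particle part. -/
def t3 : List (List ℤ) := zeroT 2

/-- Row 0 of the null part. -/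
def t4R0 : List ℤ := [20000, -10000]

/-- Row 1 of the null part. -/
def t4R1 : List ℤ := [-10000, 5000]

/-- The table of the null part. -/
def t4 : List (List ℤ) := [t4R0, t4R1]

/-- The tables with their denominators. -/
def parts : Parts where
  den := (1, 117551850995781900805599839925324068968188219526619610640023552000, 75557863725914323419136, 1, 3)
  fac := (117551850995781900805599839925324068968188219526619610640023552000, 1, 1555785793814929743358830748111818719232000, 117551850995781900805599839925324068968188219526619610640023552000, 39183950331927300268533279975108022989396073175539870213341184000)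
  t0 := t0
  t1 := t1
  t2 := t2
  t3 := t3
  t4 := t4

/-- The common denominator. -/
def den : ℕ := 117551850995781900805599839925324068968188219526619610640023552000

/-- The expansions. -/
def T : List (List ℤ) := []

/-- The weights. -/
def dw : List ℤ := [8589934592, 17179869184]

/-- Row 0 of the factor. -/
def BR0 : List ℤ := [700555389299]

/-- Row 1 of the factor. -/
def BR1 : List ℤ := [-700555389196, 14804120]

/-- The factor. -/
def B : List (List ℤ) := [BR0, BR1]

theorem target_ok : tabOk parts.den.1 ix 1 keys.length (keys ++ srcs).length
    (targetPart 3 z2Lit) parts.t0 = true := by decide +kernel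

theorem gram_ok : tabOk parts.den.2.1 ix 1 keys.length (keys ++ srcs).length
    (blocksPart 3 data) parts.t1 = true := by decide +kernel

theorem pair_ok : tabOk parts.den.2.2.1 ix 1 keys.length (keys ++ srcs).length
    (g3Part 3 data) parts.t2 = true := by decide +kernel

theorem word_ok : tabOk parts.den.2.2.2.1 ix 1 keys.length (keys ++ srcs).length
    (g4Part 3 data) parts.t3 = true := by decide +kernel

theorem null_ok : tabOk parts.den.2.2.2.2 ix 1 keys.length (keys ++ srcs).length
    (nullPart 3 data) parts.t4 = true := by decide +kernel

theorem comb_ok : combOk ix 1 keys.length (keys ++ srcs).length (expand (0 : ℚ)) srcs T = true := by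
  decide +kernel

theorem pd_ok : pdTest keys.length srcs.length dw B den parts.total T = true := by decide +kernel

theorem goal : ClassGoal data 3 :=
  classGoal_of_parts (keys := keys) (srcs := srcs) ix 1 data z2Lit 3 den parts T dw B z2Lit_eq z2Lit_cls
    (by decide +kernel) (by decide +kernel) target_ok gram_ok pair_ok word_ok null_ok comb_ok pd_ok

end C3

end Vale.Agent.P359.Moment.Cert
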