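import Vale.Agent.P359.Moment.Cert.C12

/-!
Class 44 of the residual: integer tables at `eps = 0` and the factor of the symmetric part
(2 monomials kept, 0 expanded).
-/

namespace Vale.Agent.P359.Moment.Cert

namespace C44

open Tab

/-- The monomials kept. -/
def keys : List St := [.win 3 8 9, .win 4 7 9]

/-- The monomials expanded. -/
def srcs : List St := []

/-- Their search tree. -/
def ix : Ix := .node 67366 (.leaf 0 (.win 3 8 9)) (.leaf 1 (.win 4 7 9))

/-- The table of the target part. -/
def t0 : List (List ℤ) := zeroT 2

/-- Row 0 of the Gram part. -/
def t1R0 : List ℤ := [6954691822310286900628016493015979211799828945611261344403409480, 6787658303138078314223230819464059307277806076815297152955789]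

/-- Row 1 of the Gram part. -/
def t1R1 : List ℤ := [6787658303138078314223230819464059307277806076815297152955789, 6939838186385300327702959553151338554780378716175005178650950572]

/-- The table of the Gram part. -/
def t1 : List (List ℤ) := [t1R0, t1R1]

/-- The table of the pair-particle part. -/
def t2 : List (List ℤ) := zeroT 2

/-- The table of the four-particle part. -/
def t3 : List (List ℤ) := zeroT 2

/-- The table of the null part. -/
def t4 : List (List ℤ) := zeroT 2

/-- The tables with their denominators. -/
def parts : Parts where
  den := (1, 121761078146077131694621718061519045608657692665399881173511189079251020362547200, 1, 1, 1)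
  fac := (121761078146077131694621718061519045608657692665399881173511189079251020362547200, 1, 121761078146077131694621718061519045608657692665399881173511189079251020362547200, 121761078146077131694621718061519045608657692665399881173511189079251020362547200, 121761078146077131694621718061519045608657692665399881173511189079251020362547200)
  t0 := t0
  t1 := t1
  t2 := t2
  t3 := t3
  t4 := t4

/-- The common denominator. -/
def den : ℕ := 121761078146077131694621718061519045608657692665399881173511189079251020362547200

/-- The expansions. -/
def T : List (List ℤ) := []

/-- The weights. -/
def dw : List ℤ := [73786976294838206464, 73786976294838206464]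

/-- Row 0 of the factor. -/
def BR0 : List ℤ := [557653479643]

/-- Row 1 of the factor. -/
def BR1 : List ℤ := [544260101, 557057385118]

/-- The factor. -/
def B : List (List ℤ) := [BR0, BR1]

theorem target_ok : tabOk parts.den.1 ix 1 keys.length (keys ++ srcs).length
    (targetPart 44 z2Lit) parts.t0 = true := by decide +kernel

theorem gram_ok : tabOk parts.den.2.1 ix 1 keys.length (keys ++ srcs).length
    (blocksPart 44 data) parts.t1 = true := by decide +kernel

theorem pair_ok : tabOk parts.den.2.2.1 ix 1 keys.length (keys ++ srcs).length
    (g3Part 44 data) parts.t2 = true := by decide +kernel

theorem word_ok : tabOk parts.den.2.2.2.1 ix 1 keys.length (keys ++ srcs).length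
    (g4Part 44 data) parts.t3 = true := by decide +kernel

theorem null_ok : tabOk parts.den.2.2.2.2 ix 1 keys.length (keys ++ srcs).length
    (nullPart 44 data) parts.t4 = true := by decide +kernel

theorem comb_ok : combOk ix 1 keys.length (keys ++ srcs).length (expand (0 : ℚ)) srcs T = true := by
  decide +kernel

theorem pd_ok : pdTest keys.length srcs.length dw B den parts.total T = true := by decide +kernel

theorem goal : ClassGoal data 44 :=
  classGoal_of_parts (keys := keys) (srcs := srcs) ix 1 data z2Lit 44 den parts T dw B z2Lit_eq z2Lit_cls
    (by decide +kernel) (by decide +kernel) target_ok gram_ok pair_ok word_ok null_ok comb_ok pd_ok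

end C44

end Vale.Agent.P359.Moment.Cert
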