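import Vale.Agent.P359.Moment.Cert.C9

/-!
Class 5 of the residual: integer tables at `eps = 0` and the factor of the symmetric part
(3 monomials kept, 0 expanded).
-/

namespace Vale.Agent.P359.Moment.Cert

namespace C5

open Tab

/-- The monomials kept. -/
def keys : List St := [.one 0 2, .one 1 1, .one 2 0]

/-- The monomials expanded. -/
def srcs : List St := []

/-- Their search tree. -/
def ix : Ix := .node 261 (.leaf 0 (.one 0 2)) (.node 513 (.leaf 1 (.one 1 1)) (.leaf 2 (.one 2 0)))

/-- Row 0 of the target part. -/
def t0R0 : List ℤ := [80, -80, 20]

/-- Row 1 of the target part. -/
def t0R1 : List ℤ := [-80, 80, -20]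

/-- Row 2 of the target part. -/
def t0R2 : List ℤ := [20, -20, 5]

/-- The table of the target part. -/
def t0 : List (List ℤ) := [t0R0, t0R1, t0R2]

/-- Row 0 of the Gram part. -/
def t1R0 : List ℤ := [21906793141475831721896779303075221812510026504891709227542938460955872, -8788620319728555252838453655751663080145334950554319680037496397311056, 2947188311759256070408405055692647201960922852568530822704793251481164]

/-- Row 1 of the Gram part. -/
def t1R1 : List ℤ := [-8788620319728555252838453655751663080145334950554319680037496397311056, -4621633928170429188221838329429387903908815635203666347321536368183710, 368865831144873467476370948409786402641635696704941358106710429837990]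

/-- Row 2 of the Gram part. -/
def t1R2 : List ℤ := [2947188311759256070408405055692647201960922852568530822704793251481164, 368865831144873467476370948409786402641635696704941358106710429837990, 58781592722154465046082968213506098769889827504028351544341471421863]

/-- The table of the Gram part. -/
def t1 : List (List ℤ) := [t1R0, t1R1, t1R2]

/-- Row 0 of the pair-particle part. -/
def t2R0 : List ℤ := [-81436146759246142950492, 617867293859065604630931, -43537009777198105409687]

/-- Row 1 of the pair-particle part. -/
def t2R1 : List ℤ := [-477116950261772016848661, -59067843355693456624508, 14826437942639591723213]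

/-- Row 2 of the pair-particle part. -/
def t2R2 : List ℤ := [7084594203034899892525, 16033900500350039471400, -3984851762671716890296]

/-- The table of the pair-particle part. -/
def t2 : List (List ℤ) := [t2R0, t2R1, t2R2]

/-- The table of the four-particle part. -/
def t3 : List (List ℤ) := zeroT 3

/-- The table of the null part. -/
def t4 : List (List ℤ) := zeroT 3

/-- The tables with their denominators. -/
def parts : Parts where
  den := (96, 89610340186678235016876604861488543899808464765293605244121332580352000, 75557863725914323419136, 1, 1)
  fac := (933441043611231614759131300640505665623004841305141721292930547712000, 1, 1185982977387227116259431036378153603439788032000, 89610340186678235016876604861488543899808464765293605244121332580352000, 89610340186678235016876604861488543899808464765293605244121332580352000)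
  t0 := t0
  t1 := t1
  t2 := t2
  t3 := t3
  t4 := t4

/-- The common denominator. -/
def den : ℕ := 89610340186678235016876604861488543899808464765293605244121332580352000

/-- The expansions. -/
def T : List (List ℤ) := []

/-- The weights. -/
def dw : List ℤ := [562949953421312, 562949953421312, 2251799813685248]

/-- Row 0 of the factor. -/
def BR0 : List ℤ := [825805770011]

/-- Row 1 of the factor. -/
def BR1 : List ℤ := [-633924905553, 529239439104]

/-- Row 2 of the factor. -/
def BR2 : List ℤ := [633924905553, -229835590267, 838235623459]

/-- The factor. -/
def B : List (List ℤ) := [BR0, BR1, BR2]

theorem target_ok : tabOk parts.den.1 ix 2 keys.length (keys ++ srcs).length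
    (targetPart 5 z2Lit) parts.t0 = true := by decide +kernel

theorem gram_ok : tabOk parts.den.2.1 ix 2 keys.length (keys ++ srcs).length
    (blocksPart 5 data) parts.t1 = true := by decide +kernel

theorem pair_ok : tabOk parts.den.2.2.1 ix 2 keys.length (keys ++ srcs).length
    (g3Part 5 data) parts.t2 = true := by decide +kernel

theorem word_ok : tabOk parts.den.2.2.2.1 ix 2 keys.length (keys ++ srcs).length
    (g4Part 5 data) parts.t3 = true := by decide +kernel

theorem null_ok : tabOk parts.den.2.2.2.2 ix 2 keys.length (keys ++ srcs).length
    (nullPart 5 data) parts.t4 = true := by decide +kernel

theorem comb_ok : combOk ix 2 keys.length (keys ++ srcs).length (expand (0 : ℚ)) srcs T = true := by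
  decide +kernel

theorem pd_ok : pdTest keys.length srcs.length dw B den parts.total T = true := by decide +kernel

theorem goal : ClassGoal data 5 :=
  classGoal_of_parts (keys := keys) (srcs := srcs) ix 2 data z2Lit 5 den parts T dw B z2Lit_eq z2Lit_cls
    (by decide +kernel) (by decide +kernel) target_ok gram_ok pair_ok word_ok null_ok comb_ok pd_ok

end C5

end Vale.Agent.P359.Moment.Cert
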