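import Vale.Agent.P359.Moment.Cert.Z2

/-!
Every monomial pair of the residual lies in one of the checked classes.
-/

namespace Vale.Agent.P359.Moment.Cert

open Tab

/-- The classes that occur. -/
def clsOk (c : ℕ) : Bool :=
  c == 0 || (c % 2 == 1 && decide (c ≤ 27)) || (c % 2 == 0 && decide (6 ≤ c) && decide (c ≤ 46))

/-- The checked classes. -/
def classes : List ℕ := [0, 1, 3, 5, 6, 7, 8, 9, 10, 11, 12, 13, 14, 15, 16, 17, 18, 19, 20, 21, 22, 23, 24, 25, 26, 27, 28, 30, 32, 34, 36, 38, 40, 42, 44, 46]

theorem mem_classes : ∀ c < 47, clsOk c = true → c ∈ classes := by decide +kernel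

theorem clsOk_lt {c : ℕ} (h : clsOk c = true) : c < 47 := by
  simp [clsOk] at h
  omega

theorem clsOk_odd {s : ℕ} (h : s ≤ 13) : clsOk (2 * s + 1) = true := by
  simp [clsOk]
  omega

theorem clsOk_even {w : ℕ} (h : 2 ≤ w) (h' : w ≤ 22) : clsOk (2 * w + 2) = true := by
  simp [clsOk]
  omega

/-- Two rows only reach checked classes. -/
noncomputable def okPair : Row → Row → Bool
  | .scal _, .scal _ => true
  | .scal k, .full _ a _ => Nat.ble (Nat.add k a) 13
  | .full k _ b, .scal _ => Nat.ble (Nat.add k b) 13
  | .full k a b, .full _ a' _ =>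
    (!Nat.beq a a' || Nat.ble (Nat.add k b) 13) &&
      (Nat.beq a' b || (Nat.ble 2 (Nat.add (Nat.add (Nat.add k a') b) 1) &&
        Nat.ble (Nat.add (Nat.add (Nat.add k a') b) 1) 22))

theorem clsOk_rowPair (e : ℚ) (r r' : Row) (h : okPair r r' = true) :
    ∀ p ∈ rowPair e r r', clsOk (cls p.2) = true := by
  intro p hp
  cases r with
  | scal k =>
    cases r' with
    | scal l =>
      simp only [rowPair] at hp
      split_ifs at hp <;> simp at hp <;> subst hp <;> rfl
    | full l a b =>
      simp [rowPair, okPair] at hp h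
      subst hp
      exact clsOk_odd h
  | full k a b =>
    cases r' with
    | scal l =>
      simp [rowPair, okPair] at hp h
      subst hp
      exact clsOk_odd h
    | full l a' b' =>
      simp only [okPair, Bool.and_eq_true, Bool.or_eq_true, Bool.not_eq_true', Nat.ble_eq] at h
      simp only [rowPair, List.mem_append, cross, List.mem_flatMap, List.mem_map] at hp
      rcases hp with hp | ⟨q, hq, q', -, rfl⟩
      · split_ifs at hp with haa
        · simp at hp
          subst hp
          rcases h.1 with h1 | h1
          · rw [haa, Nat.beq_refl] at h1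
            simp at h1
          · exact clsOk_odd h1
        · simp at hp
      · rcases h.2 with h2 | h2
        · have e2 := Nat.eq_of_beq_eq_true h2
          subst e2
          simp [winKey] at hq
        · simp only [winKey] at hq
          split_ifs at hq <;> simp at hq <;> subst hq
          · exact clsOk_even h2.1 h2.2
          · show clsOk (2 * (k + b + a' + 1) + 2) = true
            rw [Nat.add_right_comm k b a']
            exact clsOk_even h2.1 h2.2

theorem cover_blocks : (rall (fun B => rall (fun p => rall (fun q => okPair p.1 q.1) B) B)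
    data.blocks) = true := by decide +kernel

/-- The weight of a pair-particle relation fits. -/
noncomputable def okG3 (x : (ℕ × ℕ × ℕ × ℕ) × ℚ) : Bool :=
  (fun s => Nat.ble 1 s && Nat.ble s 13) (Nat.add x.1.1 x.1.2.1)

theorem cover_g3 : rall okG3 data.g3 = true := by decide +kernel

/-- The weight of a four-particle relation fits. -/
noncomputable def okG4 (x : (List ℕ × List ℕ) × ℚ) : Bool :=
  (fun w => Nat.ble 3 w && Nat.ble w 22)
    (List.rec (motive := fun _ => ℕ) 0 (fun a _ r => Nat.add a r) x.1.1)

theorem cover_g4 : rall okG4 data.g4 = true := by decide +kernel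

theorem cover_null : (data.null.all fun x => (nullLin (0 : ℚ) x).all fun p =>
    clsOk (cls p.2)) = true := by decide +kernel

theorem cover_tSet : (tSet.all fun n => clsOk (2 * n + 1)) = true := by decide +kernel

theorem cover_ySet : (ySet.all fun n => clsOk (2 * (n + 2) + 2)) = true := by decide +kernel

theorem cover : ((residual₀ data).map Prod.snd).all (fun p => decide (cls p ∈ classes)) = true := by
  refine List.all_eq_true.2 fun k hk => ?_
  obtain ⟨p, hp, rfl⟩ := List.mem_map.1 hk
  suffices h : clsOk (cls p.2) = true by simpa using mem_classes _ (clsOk_lt h) h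
  simp only [residual₀, residual, List.mem_append, List.mem_flatMap, scale, List.mem_map] at hp
  rcases hp with (((hp | hp) | hp) | hp) | hp
  · simp only [target, List.mem_append, List.mem_flatMap, scale, List.mem_map, cross] at hp
    rcases hp with (hp | ⟨n, hn, _, ⟨q, hq, q', hq', rfl⟩, rfl⟩) | ⟨n, hn, _, ⟨q, hq, q', hq', rfl⟩, rfl⟩
    · simp at hp
      subst hp
      rfl
    · show clsOk (cls (q.2, q.2)) = true
      rw [cls_z1 _ n q hq]
      exact List.all_eq_true.1 cover_tSet n hn
    · rw [← z2Lit_eq n hn] at hq
      show clsOk (cls (q.2, q.2)) = true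
      rw [z2Lit_cls n hn q hq]
      exact List.all_eq_true.1 cover_ySet n hn
  · obtain ⟨a, ⟨B, hB, ha⟩, rfl⟩ := hp
    simp only [blockLin, List.mem_flatMap, scale, List.mem_map] at ha
    obtain ⟨r, hr, r', hr', b, hb, rfl⟩ := ha
    exact clsOk_rowPair _ r.1 r'.1
      (rall_iff.1 (rall_iff.1 (rall_iff.1 cover_blocks B hB) r hr) r' hr') b hb
  · obtain ⟨x, hx, hxp⟩ := hp
    have hw := rall_iff.1 cover_g3 x hx
    simp only [okG3, Bool.and_eq_true, Nat.ble_eq] at hw
    change 1 ≤ x.1.1 + x.1.2.1 ∧ x.1.1 + x.1.2.1 ≤ 13 at hw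
    by_cases ht : tag3 (cls p.2) x = true
    · simp only [tag3, Bool.or_eq_true, beq_iff_eq] at ht
      rcases ht with ht | ht
      · rw [ht]
        exact clsOk_odd hw.2
      · rw [show cls p.2 = 2 * (x.1.1 + x.1.2.1 - 1) + 1 by omega]
        exact clsOk_odd (by omega)
    · exact absurd rfl (cls_gauge3 _ x (by simpa using ht) p hxp)
  · obtain ⟨x, hx, hxp⟩ := hp
    have hw := rall_iff.1 cover_g4 x hx
    simp only [okG4, rec_sum, Bool.and_eq_true, Nat.ble_eq] at hw
    rcases cls_gauge4 x p hxp with e | e
    · rw [show cls p.2 = 2 * (x.1.1.sum - 1) + 2 by omega]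
      exact clsOk_even (by omega) (by omega)
    · rw [e]
      exact clsOk_even (by omega) hw.2
  · obtain ⟨x, hx, hxp⟩ := hp
    exact List.all_eq_true.1 (List.all_eq_true.1 cover_null x hx) p hxp

end Vale.Agent.P359.Moment.Cert
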