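import Vale.Agent.P359.Moment.Cert.Base

/-!
The two-pair channels at `eps = 0` as literals.
-/

namespace Vale.Agent.P359.Moment.Cert

/-- The word combination of channel 0 at `eps = 0`. -/
def z2R0 : List ((ℤ × ℕ) × St) := []

/-- The word combination of channel 1 at `eps = 0`. -/
def z2R1 : List ((ℤ × ℕ) × St) := []

/-- The word combination of channel 2 at `eps = 0`. -/
def z2R2 : List ((ℤ × ℕ) × St) := []

/-- The word combination of channel 3 at `eps = 0`. -/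
def z2R3 : List ((ℤ × ℕ) × St) := []

/-- The word combination of channel 4 at `eps = 0`. -/
def z2R4 : List ((ℤ × ℕ) × St) := [((2048, 1), .word [0, 1, 2, 3])]

/-- The word combination of channel 5 at `eps = 0`. -/
def z2R5 : List ((ℤ × ℕ) × St) := [((0, 1), .word [0, 1, 2, 4])]

/-- The word combination of channel 6 at `eps = 0`. -/
def z2R6 : List ((ℤ × ℕ) × St) := [((24576, 1), .word [0, 1, 2, 5]), ((-40960, 1), .word [0, 1, 3, 4])]

/-- The word combination of channel 7 at `eps = 0`. -/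
def z2R7 : List ((ℤ × ℕ) × St) := [((0, 1), .word [0, 1, 2, 6]), ((0, 1), .word [0, 1, 3, 5]), ((0, 1), .word [0, 2, 3, 4])]

/-- The word combination of channel 8 at `eps = 0`. -/
def z2R8 : List ((ℤ × ℕ) × St) := [((196608, 1), .word [0, 1, 2, 7]), ((-458752, 1), .word [0, 1, 3, 6]), ((917504, 1), .word [0, 1, 4, 5]), ((-458752, 1), .word [0, 2, 3, 5]), ((2293760, 1), .word [1, 2, 3, 4])]

/-- The word combination of channel 9 at `eps = 0`. -/
def z2R9 : List ((ℤ × ℕ) × St) := [((0, 1), .word [0, 1, 2, 8]), ((0, 1), .word [0, 1, 3, 7]), ((0, 1), .word [0, 1, 4, 6]), ((0, 1), .word [0, 2, 3, 6]), ((0, 1), .word [0, 2, 4, 5]), ((0, 1), .word [1, 2, 3, 5])]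

/-- The word combination of channel 10 at `eps = 0`. -/
def z2R10 : List ((ℤ × ℕ) × St) := [((1310720, 1), .word [0, 1, 2, 9]), ((-3932160, 1), .word [0, 1, 3, 8]), ((11796480, 1), .word [0, 1, 4, 7]), ((-16515072, 1), .word [0, 1, 5, 6]), ((-7864320, 1), .word [0, 2, 3, 7]), ((0, 1), .word [0, 2, 4, 6]), ((55050240, 1), .word [1, 2, 3, 6]), ((27525120, 1), .word [0, 3, 4, 5]), ((-82575360, 1), .word [1, 2, 4, 5])]

/-- The word combination of channel 11 at `eps = 0`. -/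
def z2R11 : List ((ℤ × ℕ) × St) := [((0, 1), .word [0, 1, 2, 10]), ((0, 1), .word [0, 1, 3, 9]), ((0, 1), .word [0, 1, 4, 8]), ((0, 1), .word [0, 1, 5, 7]), ((0, 1), .word [0, 2, 3, 8]), ((0, 1), .word [0, 2, 4, 7]), ((0, 1), .word [0, 2, 5, 6]), ((0, 1), .word [1, 2, 3, 7]), ((0, 1), .word [0, 3, 4, 6]), ((0, 1), .word [1, 2, 4, 6]), ((0, 1), .word [1, 3, 4, 5])]

/-- The word combination of channel 12 at `eps = 0`. -/
def z2R12 : List ((ℤ × ℕ) × St) := [((7864320, 1), .word [0, 1, 2, 11]), ((-28835840, 1), .word [0, 1, 3, 10]), ((115343360, 1), .word [0, 1, 4, 9]), ((-207618048, 1), .word [0, 1, 5, 8]), ((311427072, 1), .word [0, 1, 6, 7]), ((-86507520, 1), .word [0, 2, 3, 9]), ((0, 1), .word [0, 2, 4, 8]), ((-103809024, 1), .word [0, 2, 5, 7]), ((778567680, 1), .word [1, 2, 3, 8]), ((692060160, 1), .word [0, 3, 4, 7]), ((-1557135360, 1), .word [1, 2, 4, 7]), ((-726663168, 1), .word [0, 3, 5, 6]),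 ((2906652672, 1), .word [1, 2, 5, 6]), ((-1211105280, 1), .word [1, 3, 4, 6]), ((3633315840, 1), .word [2, 3, 4, 5])]

/-- The word combination of channel 13 at `eps = 0`. -/
def z2R13 : List ((ℤ × ℕ) × St) := [((0, 1), .word [0, 1, 2, 12]), ((0, 1), .word [0, 1, 3, 11]), ((0, 1), .word [0, 1, 4, 10]), ((0, 1), .word [0, 1, 5, 9]), ((0, 1), .word [0, 1, 6, 8]), ((0, 1), .word [0, 2, 3, 10]), ((0, 1), .word [0, 2, 4, 9]), ((0, 1), .word [0, 2, 5, 8]), ((0, 1), .word [0, 2, 6, 7]), ((0, 1), .word [1, 2, 3, 9]), ((0, 1), .word [0, 3, 4, 8]), ((0, 1), .word [1, 2, 4, 8]), ((0, 1), .word [0, 3, 5, 7]), ((0, 1), .word [1, 2, 5, 7]), ((0, 1), .word [1, 3, 4, 7]), ((0, 1), .word [0, 4, 5, 6]), ((0, 1), .word [1, 3, 5, 6]), ((0, 1), .word [2, 3, 4, 6])]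

/-- The word combination of channel 14 at `eps = 0`. -/
def z2R14 : List ((ℤ × ℕ) × St) := [((44040192, 1), .word [0, 1, 2, 13]), ((-190840832, 1), .word [0, 1, 3, 12]), ((954204160, 1), .word [0, 1, 4, 11]), ((-2099249152, 1), .word [0, 1, 5, 10]), ((4198498304, 1), .word [0, 1, 6, 9]), ((-5398069248, 1), .word [0, 1, 7, 8]), ((-763363328, 1), .word [0, 2, 3, 11]), ((0, 1), .word [0, 2, 4, 10]), ((-2099249152, 1), .word [0, 2, 5, 9]), ((0, 1), .word [0, 2, 6, 8]), ((8396996608, 1), .word [1, 2, 3, 10]), ((10496245760, 1), .word [0, 3, 4, 9]), ((-20992491520, 1), .word [1, 2, 4, 9]), ((-12595494912, 1), .word [0, 3, 5, 8]), ((56679727104, 1), .word [1, 2, 5, 8]), ((25190989824, 1), .word [0, 3, 6, 7]), ((-75572969472, 1), .word [1, 2, 6, 7]), ((-31488737280, 1), .word [1, 3, 4, 8]), ((-12595494912, 1), .word [0, 4, 5, 7]), ((0, 1), .word [1, 3, 5, 7]), ((125954949120, 1), .word [2, 3, 4, 7]), ((88168464384,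 1), .word [1, 4, 5, 6]), ((-176336928768, 1), .word [2, 3, 5, 6])]

/-- The word combination of channel 15 at `eps = 0`. -/
def z2R15 : List ((ℤ × ℕ) × St) := [((0, 1), .word [0, 1, 2, 14]), ((0, 1), .word [0, 1, 3, 13]), ((0, 1), .word [0, 1, 4, 12]), ((0, 1), .word [0, 1, 5, 11]), ((0, 1), .word [0, 1, 6, 10]), ((0, 1), .word [0, 1, 7, 9]), ((0, 1), .word [0, 2, 3, 12]), ((0, 1), .word [0, 2, 4, 11]), ((0, 1), .word [0, 2, 5, 10]), ((0, 1), .word [0, 2, 6, 9]), ((0, 1), .word [0, 2, 7, 8]), ((0, 1), .word [1, 2, 3, 11]), ((0, 1), .word [0, 3, 4, 10]), ((0, 1), .word [1, 2, 4, 10]), ((0, 1), .word [0, 3, 5, 9]), ((0, 1), .word [1, 2, 5, 9]), ((0, 1), .word [0, 3, 6, 8]), ((0, 1), .word [1, 2, 6, 8]), ((0, 1), .word [1, 3, 4, 9]), ((0, 1), .word [0, 4, 5, 8]), ((0, 1), .word [1, 3, 5, 8]), ((0, 1), .word [0, 4, 6, 7]), ((0, 1), .word [1, 3, 6, 7]), ((0, 1), .word [2, 3, 4, 8]), ((0, 1), .word [1, 4,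 5, 7]), ((0, 1), .word [2, 3, 5, 7]), ((0, 1), .word [2, 4, 5, 6])]

/-- All of them. -/
def z2Tab : List (List ((ℤ × ℕ) × St)) := [z2R0, z2R1, z2R2, z2R3, z2R4, z2R5, z2R6, z2R7, z2R8, z2R9, z2R10, z2R11, z2R12, z2R13, z2R14, z2R15]

/-- Lookup. -/
def z2Lit (n : ℕ) : Comb ℚ := (z2Tab.getD n []).map fun p => ((p.1.1 : ℚ) / (p.1.2 : ℚ), p.2)

theorem z2Lit_eq0 : z2Lit 0 = z2 (parAt (0 : ℚ)).eps 0 := by decide +kernel

theorem z2Lit_eq1 : z2Lit 1 = z2 (parAt (0 : ℚ)).eps 1 := by decide +kernel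

theorem z2Lit_eq2 : z2Lit 2 = z2 (parAt (0 : ℚ)).eps 2 := by decide +kernel

theorem z2Lit_eq3 : z2Lit 3 = z2 (parAt (0 : ℚ)).eps 3 := by decide +kernel

theorem z2Lit_eq4 : z2Lit 4 = z2 (parAt (0 : ℚ)).eps 4 := by decide +kernel

theorem z2Lit_eq5 : z2Lit 5 = z2 (parAt (0 : ℚ)).eps 5 := by decide +kernel

theorem z2Lit_eq6 : z2Lit 6 = z2 (parAt (0 : ℚ)).eps 6 := by decide +kernel

theorem z2Lit_eq7 : z2Lit 7 = z2 (parAt (0 : ℚ)).eps 7 := by decide +kernel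

theorem z2Lit_eq8 : z2Lit 8 = z2 (parAt (0 : ℚ)).eps 8 := by decide +kernel

theorem z2Lit_eq9 : z2Lit 9 = z2 (parAt (0 : ℚ)).eps 9 := by decide +kernel

theorem z2Lit_eq10 : z2Lit 10 = z2 (parAt (0 : ℚ)).eps 10 := by decide +kernel

theorem z2Lit_eq11 : z2Lit 11 = z2 (parAt (0 : ℚ)).eps 11 := by decide +kernel

theorem z2Lit_eq12 : z2Lit 12 = z2 (parAt (0 : ℚ)).eps 12 := by decide +kernel

theorem z2Lit_eq13 : z2Lit 13 = z2 (parAt (0 : ℚ)).eps 13 := by decide +kernel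

theorem z2Lit_eq14 : z2Lit 14 = z2 (parAt (0 : ℚ)).eps 14 := by decide +kernel

theorem z2Lit_eq15 : z2Lit 15 = z2 (parAt (0 : ℚ)).eps 15 := by decide +kernel

theorem z2Lit_eq : ∀ n ∈ ySet, z2Lit n = z2 (parAt (0 : ℚ)).eps n := by
  intro n hn
  simp only [ySet, List.mem_range] at hn
  interval_cases n
  · exact z2Lit_eq0
  · exact z2Lit_eq1
  · exact z2Lit_eq2
  · exact z2Lit_eq3
  · exact z2Lit_eq4
  · exact z2Lit_eq5
  · exact z2Lit_eq6
  · exact z2Lit_eq7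
  · exact z2Lit_eq8
  · exact z2Lit_eq9
  · exact z2Lit_eq10
  · exact z2Lit_eq11
  · exact z2Lit_eq12
  · exact z2Lit_eq13
  · exact z2Lit_eq14
  · exact z2Lit_eq15

theorem z2Lit_clsOk : (ySet.all fun n => (z2Lit n).all fun q =>
    decide (cls (q.2, q.2) = 2 * (n + 2) + 2)) = true := by decide +kernel

theorem z2Lit_cls : ∀ n ∈ ySet, ∀ q ∈ z2Lit n, cls (q.2, q.2) = 2 * (n + 2) + 2 := fun n hn q hq => by
  simpa using List.all_eq_true.1 (List.all_eq_true.1 z2Lit_clsOk n hn) q hq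

end Vale.Agent.P359.Moment.Cert
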